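import Vale.Agent.P161T11.Final

/-!
# P161: the free Ising measure on `T_d` is a factor of IID iff `tanh β ≤ (d-1)^(-1/2)`

The tree `T_d` is built and is unique; the measure is built from a root as in the problem.
-/

open MeasureTheory Vale.Agent.P161 Vale.Agent.P161T11

namespace Vale.Agent.Results.P161.ARegularTree

universe u

theorem result (d : ℕ) (hd : 3 ≤ d) :
    ((T d).IsTree ∧ (∀ v, ((T d).neighborSet v).ncard = d) ∧ Infinite (Word d) ∧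
      ∃ μ : ℝ → Measure (Word d → ℤˣ),
        (∀ β o ν, IsBuiltFrom (T d) (Real.tanh β) o ν ↔ ν = μ β) ∧
        {β : ℝ | 0 ≤ β ∧ IsFactorOfIID (T d) (μ β)} =
          {β : ℝ | 0 ≤ β ∧ Real.tanh β ≤ ((d : ℝ) - 1) ^ (-(1 / 2) : ℝ)}) ∧
    ∀ (V : Type u) (G : SimpleGraph V), G.IsTree → (∀ v, (G.neighborSet v).ncard = d) →
      Nonempty (G ≃g T d) ∧ ∃ μ : ℝ → Measure (V → ℤˣ),
        (∀ β o ν, IsBuiltFrom G (Real.tanh β) o ν ↔ ν = μ β) ∧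
        (∀ β ν, IsFreeIsing G (Real.tanh β) ν ↔ ν = μ β) ∧
        (∀ β (g : G ≃g G), (μ β).map (fun σ v => σ (g.symm v)) = μ β) ∧
        {β : ℝ | 0 ≤ β ∧ IsFactorOfIID G (μ β)} =
          {β : ℝ | 0 ≤ β ∧ Real.tanh β ≤ ((d : ℝ) - 1) ^ (-(1 / 2) : ℝ)} ∧
        ∀ β, IsFactorOfIID G (μ β) ↔ |Real.tanh β| ≤ ((d : ℝ) - 1) ^ (-(1 / 2) : ℝ) :=
  ⟨⟨isTree, ncard_nb, infinite_word (by omega),
    (main d hd (T d) isTree ncard_nb).imp fun _ h => ⟨h.1, h.2.2.2.1⟩⟩,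
    fun _ G hG hr => ⟨iso_T hG (by omega) hr, main d hd G hG hr⟩⟩

end Vale.Agent.Results.P161.ARegularTree
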